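import Vale.Agent.P192.Tree.Ray
import Vale.Agent.P192.Bound

/-!
# Uniform orbit bound by a limit of actions, and the finite image theorems
-/

namespace Vale.Agent.P192.Tree

open Filter

variable {d n k : ℕ}

theorem word_bound {G : Type*} [Group G] (φ : FreeGroup (Fin n) →* G)
    (ρ : G →* Equiv.Perm (Pt d k)) {R : ℕ}
    (hR : ∀ s z, FreeGroup.norm (z.1⁻¹ * (letAct φ ρ s z).1) ≤ R) (L : List (Fin n × Bool))
    (z : Pt d k) : FreeGroup.norm (z.1⁻¹ * (ρ (φ (FreeGroup.mk L)) z).1) ≤ L.length * R := by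
  rw [letAct_mk]
  induction L with
  | nil => simp
  | cons s L ih =>
    simp only [List.map_cons, List.prod_cons, Equiv.Perm.mul_apply, List.length_cons]
    refine (norm_inv_mul_triangle _ ((L.map (letAct φ ρ)).prod z).1 _).trans ?_
    have := hR s ((L.map (letAct φ ρ)).prod z)
    rw [Nat.add_mul, one_mul]
    omega

theorem orbit_bound {G : Type*} [Group G] (hG : ∀ g : G, IsOfFinOrder g)
    (φ : FreeGroup (Fin n) →* G) (hφ : Function.Surjective φ) (S : Set (FreeGroup (Fin n)))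
    (hS : S.Finite) (hker : Subgroup.normalClosure S = φ.ker) (d k R : ℕ) :
    ∃ M : ℕ, ∀ ρ : G →* Equiv.Perm (Pt d k),
      (∀ s z, FreeGroup.norm (z.1⁻¹ * (letAct φ ρ s z).1) ≤ R) →
        ∀ g z, FreeGroup.norm (z.1⁻¹ * (ρ g z).1) ≤ M := by
  classical
  by_contra! hcon
  choose ρ₀ hR₀ g₀ z₀ hbig using hcon
  let τ : ℕ → Equiv.Perm (Pt d k) := fun N =>
    { toFun := sh (z₀ N).1
      invFun := sh (z₀ N).1⁻¹
      left_inv := fun z => by simp [sh_sh, sh_one]
      right_inv := fun z => by simp [sh_sh, sh_one] }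
  let ρ : ℕ → G →* Equiv.Perm (Pt d k) := fun N => (MulAut.conj (τ N)⁻¹).toMonoidHom.comp (ρ₀ N)
  have hρ : ∀ N g z, ρ N g z = sh (z₀ N).1⁻¹ (ρ₀ N g (sh (z₀ N).1 z)) := by
    intro N g z
    simp [ρ, τ]
  have hR : ∀ N s z, FreeGroup.norm (z.1⁻¹ * (letAct φ (ρ N) s z).1) ≤ R := by
    intro N s z
    rw [letAct, hρ]
    refine le_of_eq_of_le ?_ (hR₀ N s (sh (z₀ N).1 z))
    simp only [sh, letAct]
    congr 1
    group
  let U : Ultrafilter ℕ := Filter.hyperfilter ℕ
  have hU : ∀ {f : ℕ → Pt d k} {s : Set (Pt d k)}, s.Finite → (∀ N, f N ∈ s) →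
      ∃ y, ∀ᶠ N in (U : Filter ℕ), f N = y := by
    intro f s hs hf
    obtain ⟨y, -, hy⟩ := Ultrafilter.eq_pure_of_finite_mem hs
      (show s ∈ U.map f from Ultrafilter.mem_map.2 (Filter.univ_mem' hf))
    refine ⟨y, ?_⟩
    have : ({y} : Set (Pt d k)) ∈ U.map f := by rw [hy]; exact Ultrafilter.mem_pure.2 rfl
    exact Ultrafilter.mem_map.1 this
  have hlim : ∀ g z, ∃ y, ∀ᶠ N in (U : Filter ℕ), ρ N g z = y := by
    intro g z
    obtain ⟨w, rfl⟩ := hφ g
    refine hU ((((finite_norm_le (w.toWord.length * R)).image fun m => z.1 * m).prod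
      (Set.finite_univ (α := Fin k)))) fun N => ⟨⟨z.1⁻¹ * (ρ N (φ w) z).1, ?_, by simp⟩, trivial⟩
    have := word_bound φ (ρ N) (hR N) w.toWord z
    rwa [FreeGroup.mk_toWord] at this
  choose lim hlim using hlim
  have huniq : ∀ g z y, (∀ᶠ N in (U : Filter ℕ), ρ N g z = y) → lim g z = y := fun g z y h => by
    obtain ⟨N, h1, h2⟩ := ((hlim g z).and h).exists
    exact h1 ▸ h2
  have hone : ∀ z, lim 1 z = z := fun z =>
    huniq 1 z z (Filter.Eventually.of_forall fun N => by simp)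
  have hmul : ∀ g h z, lim (g * h) z = lim g (lim h z) := fun g h z =>
    huniq _ z _ (((hlim g (lim h z)).and (hlim h z)).mono fun N hN => by
      rw [map_mul, Equiv.Perm.mul_apply, hN.2, hN.1])
  let ρl : G →* Equiv.Perm (Pt d k) :=
    { toFun := fun g =>
        { toFun := lim g
          invFun := lim g⁻¹
          left_inv := fun z => by rw [← hmul, inv_mul_cancel, hone]
          right_inv := fun z => by rw [← hmul, mul_inv_cancel, hone] }
      map_one' := Equiv.ext hone
      map_mul' := fun g h => Equiv.ext (hmul g h) }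
  have hRl : ∀ s z, FreeGroup.norm (z.1⁻¹ * (letAct φ ρl s z).1) ≤ R := fun s z => by
    obtain ⟨N, hN⟩ := (hlim (φ (FreeGroup.mk [s])) z).exists
    have := hR N s z
    simp only [letAct] at this
    rw [hN] at this
    exact this
  obtain ⟨y0, hy0⟩ := hU (Set.finite_univ.image fun b : Fin k => ((1, b) : Pt d k))
    (f := fun N => (1, (z₀ N).2)) fun N => ⟨_, trivial, rfl⟩
  have hO := finite_orbit hG φ hφ S hS hker R ρl hRl y0
  obtain ⟨K, hK⟩ := (hO.image fun z => FreeGroup.norm z.1).bddAbove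
  have hev : ∀ᶠ N in (U : Filter ℕ), ∀ z ∈ {z | Conn (letAct φ ρl) (fun _ => True) y0 z},
      ∀ s, ρ N (φ (FreeGroup.mk [s])) z = lim (φ (FreeGroup.mk [s])) z :=
    (hO.eventually_all).2 fun z _ => Filter.eventually_all.2 fun s => hlim _ z
  have hbigN : ∀ᶠ N in (U : Filter ℕ), K < N :=
    Filter.hyperfilter_le_cofinite (Nat.cofinite_eq_atTop ▸ Filter.eventually_gt_atTop K)
  obtain ⟨N, ⟨hN1, hN2⟩, hN3⟩ := ((hev.and hy0).and hbigN).exists
  have hmem : ∀ L, ρ N (φ (FreeGroup.mk L)) y0 ∈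
      {z | Conn (letAct φ ρl) (fun _ => True) y0 z} := by
    intro L
    induction L with
    | nil =>
      simp only [← FreeGroup.one_eq_mk, map_one]
      exact Relation.ReflTransGen.refl
    | cons s L ih =>
      have e : FreeGroup.mk (s :: L) = FreeGroup.mk [s] * FreeGroup.mk L := by
        simp [FreeGroup.mul_mk]
      rw [e, map_mul φ, map_mul, Equiv.Perm.mul_apply, hN1 _ ih s]
      exact Relation.ReflTransGen.tail ih ⟨trivial, trivial, s, rfl⟩
  obtain ⟨w, hw⟩ := hφ (g₀ N)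
  have h1 := hmem w.toWord
  rw [FreeGroup.mk_toWord, hw] at h1
  have h2 : FreeGroup.norm (ρ N (g₀ N) y0).1 ≤ K := hK ⟨_, h1, rfl⟩
  rw [← hN2, hρ] at h2
  simp only [sh, mul_one] at h2
  have h3 := hbig N
  simp only [Prod.mk.eta] at h2
  omega

/-- Finitely presented periodic groups have finite images in bounded-displacement permutations of
finitely many copies of a tree. -/
theorem finite_image_tree {G : Type*} [Group G] [hP : Group.IsFinitelyPresented G]
    (hG : ∀ g : G, IsOfFinOrder g) (d k : ℕ) (ρ : G →* Equiv.Perm (Pt d k))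
    (hb : ∀ g, ∃ R : ℕ, ∀ z, FreeGroup.norm (z.1⁻¹ * (ρ g z).1) ≤ R) :
    (Set.range fun g => ρ g).Finite := by
  classical
  obtain ⟨n, φ, hφ, S, hS, hker⟩ := hP.out
  choose R hR using fun s : Fin n × Bool => hb (φ (FreeGroup.mk [s]))
  obtain ⟨M, hM⟩ := orbit_bound hG φ hφ S hS hker d k (Finset.univ.sup R)
  have hM' := hM ρ fun s z => (hR s z).trans (Finset.le_sup (Finset.mem_univ s))
  refine finite_range_of_small_orbits φ hφ ρ ((finite_norm_le (d := d) M).toFinset.card * k)
    fun z => ?_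
  refine ⟨((finite_norm_le M).toFinset.image fun m => z.1 * m) ×ˢ Finset.univ, ?_, fun g => ?_⟩
  · rw [Finset.card_product, Finset.card_univ, Fintype.card_fin]
    exact Nat.mul_le_mul_right _ Finset.card_image_le
  · simp only [Finset.mem_product, Finset.mem_image, Set.Finite.mem_toFinset, Finset.mem_univ,
      and_true]
    exact ⟨z.1⁻¹ * (ρ g z).1, hM' g z, by simp⟩

/-- Finitely presented periodic groups have finite images in full groups of free actions of free
groups. -/
theorem finite_image_free {G : Type*} [Group G] [hP : Group.IsFinitelyPresented G]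
    (hG : ∀ g : G, IsOfFinOrder g) {d : ℕ} {X : Type*} [MulAction (FreeGroup (Fin d)) X]
    (hfree : ∀ (e : FreeGroup (Fin d)) (x : X), e • x = x → e = 1)
    (ρ : G →* Equiv.Perm X)
    (hb : ∀ g, ∃ E : Finset (FreeGroup (Fin d)), ∀ x, ∃ e ∈ E, ρ g x = e • x) :
    (Set.range fun g => ρ g).Finite := by
  classical
  obtain ⟨n, φ, hφ, S, hS, hker⟩ := hP.out
  choose E hE using hb
  set R : ℕ := Finset.univ.sup fun s : Fin n × Bool =>
    (E (φ (FreeGroup.mk [s]))).sup FreeGroup.norm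
  obtain ⟨M, hM⟩ := orbit_bound hG φ hφ S hS hker d 1 R
  refine finite_range_of_small_orbits φ hφ ρ (finite_norm_le (d := d) M).toFinset.card fun x => ?_
  choose e he hex using hE
  let mv : G → Pt d 1 → Pt d 1 := fun g y => (y.1 * (e g (y.1⁻¹ • x))⁻¹, y.2)
  have hmv : ∀ g y, (mv g y).1⁻¹ • x = ρ g (y.1⁻¹ • x) := by
    intro g y
    rw [hex]
    simp [mv, mul_smul]
  have huniq : ∀ y y' : Pt d 1, y.1⁻¹ • x = y'.1⁻¹ • x → y = y' := by
    intro y y' h
    refine Prod.ext ?_ (Subsingleton.elim _ _)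
    have := hfree (y'.1 * y.1⁻¹) x (by rw [mul_smul, h, ← mul_smul, mul_inv_cancel, one_smul])
    exact (mul_inv_eq_one.1 this).symm
  have hone : ∀ y, mv 1 y = y := fun y => huniq _ _ (by simp [hmv])
  have hmul : ∀ g h y, mv (g * h) y = mv g (mv h y) := fun g h y => huniq _ _ (by simp [hmv])
  let ρ' : G →* Equiv.Perm (Pt d 1) :=
    { toFun := fun g =>
        { toFun := mv g
          invFun := mv g⁻¹
          left_inv := fun y => by rw [← hmul, inv_mul_cancel, hone]
          right_inv := fun y => by rw [← hmul, mul_inv_cancel, hone] }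
      map_one' := Equiv.ext hone
      map_mul' := fun g h => Equiv.ext (hmul g h) }
  have hR : ∀ s z, FreeGroup.norm (z.1⁻¹ * (letAct φ ρ' s z).1) ≤ R := fun s z => by
    change FreeGroup.norm (z.1⁻¹ * (z.1 * (e (φ (FreeGroup.mk [s])) (z.1⁻¹ • x))⁻¹)) ≤ R
    rw [inv_mul_cancel_left, FreeGroup.norm_inv_eq]
    exact (Finset.le_sup (he _ _)).trans (Finset.le_sup (f := fun s : Fin n × Bool =>
      (E (φ (FreeGroup.mk [s]))).sup FreeGroup.norm) (Finset.mem_univ s))
  refine ⟨(finite_norm_le (d := d) M).toFinset.image fun m => m⁻¹ • x, Finset.card_image_le,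
    fun g => ?_⟩
  have h1 := hM ρ' hR g ((1, 0) : Pt d 1)
  rw [inv_one, one_mul] at h1
  refine Finset.mem_image.2 ⟨_, (Set.Finite.mem_toFinset _).2 h1, ?_⟩
  have := hmv g ((1, 0) : Pt d 1)
  simpa [ρ'] using this

end Vale.Agent.P192.Tree
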