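import Vale.Agent.P192.Tree.Word

/-!
# The periodic model: a crossing repeated pattern gives an element of infinite order
-/

namespace Vale.Agent.P192.Tree

variable {d n k : ℕ}

/-- Vertices of `k` copies of the tree. -/
abbrev Pt (d k : ℕ) := FreeGroup (Fin d) × Fin k

/-- Translation. -/
def sh (m : FreeGroup (Fin d)) (z : Pt d k) : Pt d k := (m * z.1, z.2)

theorem sh_sh (a b : FreeGroup (Fin d)) (z : Pt d k) : sh a (sh b z) = sh (a * b) z := by
  simp [sh, mul_assoc]

theorem sh_one (z : Pt d k) : sh 1 z = z := by simp [sh]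

/-- Connection inside a region by letters of a system of permutations. -/
def Conn (A : Fin n × Bool → Equiv.Perm (Pt d k)) (P : FreeGroup (Fin d) → Prop) :
    Pt d k → Pt d k → Prop :=
  Relation.ReflTransGen fun z z' => P z.1 ∧ P z'.1 ∧ ∃ s, A s z = z'

theorem Conn.mono {A : Fin n × Bool → Equiv.Perm (Pt d k)} {P Q : FreeGroup (Fin d) → Prop}
    (h : ∀ w, P w → Q w) {x y : Pt d k} (hc : Conn A P x y) : Conn A Q x y :=
  Relation.ReflTransGen.mono (fun _ _ ⟨h1, h2, h3⟩ => ⟨h _ h1, h _ h2, h3⟩) _ _ hc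

/-- The action of a letter. -/
def letAct {G : Type*} [Group G] {X : Type*} (φ : FreeGroup (Fin n) →* G) (ρ : G →* Equiv.Perm X)
    (s : Fin n × Bool) : Equiv.Perm X := ρ (φ (FreeGroup.mk [s]))

theorem letAct_mk {G : Type*} [Group G] {X : Type*} (φ : FreeGroup (Fin n) →* G)
    (ρ : G →* Equiv.Perm X) (L : List (Fin n × Bool)) :
    ρ (φ (FreeGroup.mk L)) = (L.map (letAct φ ρ)).prod := by
  induction L with
  | nil => simp [← FreeGroup.one_eq_mk]
  | cons s L ih =>
    rw [List.map_cons, List.prod_cons, ← ih, letAct, ← map_mul, ← map_mul,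
      FreeGroup.mul_mk]
    rfl

theorem letAct_opp {G : Type*} [Group G] {X : Type*} (φ : FreeGroup (Fin n) →* G)
    (ρ : G →* Equiv.Perm X) (s : Fin n × Bool) (x : X) :
    letAct φ ρ (opp s) (letAct φ ρ s x) = x := by
  have h : FreeGroup.mk [opp s] = (FreeGroup.mk [s])⁻¹ := by
    simp [FreeGroup.inv_mk, FreeGroup.invRev, opp]
  rw [letAct, letAct, h, map_inv φ, map_inv ρ]
  simp

variable (a : Fin d × Bool) (u : FreeGroup (Fin d))

/-- The fundamental domain of the translation `u`. -/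
def Dom (w : FreeGroup (Fin d)) : Prop := St a w ∧ ¬ St a (u⁻¹ * w)

variable {a u} {p : ℕ} (hu : ∀ y, St a y → St a (u * y) ∧ FreeGroup.norm (u * y) = p + FreeGroup.norm y)

include hu

theorem iter_u (m : ℕ) {y : FreeGroup (Fin d)} (hy : St a y) :
    St a (u ^ m * y) ∧ FreeGroup.norm (u ^ m * y) = m * p + FreeGroup.norm y := by
  induction m with
  | zero => simp [hy]
  | succ m ih =>
    obtain ⟨h1, h2⟩ := hu _ ih.1
    rw [pow_succ', mul_assoc]
    exact ⟨h1, by rw [h2, ih.2]; ring⟩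

theorem exists_dom (hp : 1 ≤ p) (w : FreeGroup (Fin d)) : ∃ m : ℤ, Dom a u (u ^ (-m) * w) := by
  classical
  have hbig : ∀ j : ℕ, FreeGroup.norm w + 2 ≤ j → St a (u ^ j * w) := by
    intro j hj
    by_contra hn
    obtain ⟨h1, h2⟩ := iter_u hu j (st_el a).1
    have h3 := cut h1 hn
    have h4 : (u ^ j * el a)⁻¹ * (u ^ j * w) = (el a)⁻¹ * w := by group
    rw [h4] at h3
    have h5 := FreeGroup.norm_mul_le (el a)⁻¹ w
    rw [FreeGroup.norm_inv_eq, (st_el a).2] at h5
    rw [(st_el a).2] at h2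
    nlinarith
  have hsmall : ∀ j : ℕ, FreeGroup.norm w + 1 ≤ j → ¬ St a ((u ^ j)⁻¹ * w) := by
    intro j hj hs
    obtain ⟨-, h2⟩ := iter_u hu j hs
    rw [mul_inv_cancel_left] at h2
    have := one_le_norm hs
    nlinarith
  set J := FreeGroup.norm w + 2
  let Q : ℤ → Prop := fun m => St a (u ^ (-m) * w)
  have hQ0 : Q (-J) := by
    simp only [Q, neg_neg, zpow_natCast]
    exact hbig J le_rfl
  have hQ1 : ∀ m, Q m → m ≤ (J : ℤ) := fun m hm => by
    by_contra hlt
    refine hsmall m.toNat (by omega) ?_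
    have : ((m.toNat : ℤ)) = m := Int.toNat_of_nonneg (by omega)
    have hm' : St a (u ^ (-m) * w) := hm
    rw [← zpow_natCast, this, ← zpow_neg]
    exact hm'
  obtain ⟨m, hm, hmax⟩ := Int.exists_greatest_of_bdd ⟨(J : ℤ), hQ1⟩ ⟨_, hQ0⟩
  refine ⟨m, hm, fun hs => ?_⟩
  have := hmax (m + 1) (by
    simp only [Q]
    rw [show -(m + 1) = -1 + -m by ring, zpow_add, zpow_neg_one, mul_assoc]
    exact hs)
  omega

theorem dom_unique {m m' : ℤ} {w : FreeGroup (Fin d)} (h : Dom a u (u ^ (-m) * w))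
    (h' : Dom a u (u ^ (-m') * w)) : m = m' := by
  by_contra hne
  wlog hlt : m < m' generalizing m m'
  · exact this h' h (Ne.symm hne) (by omega)
  obtain ⟨j, hj⟩ : ∃ j : ℕ, m' = m + 1 + j := ⟨(m' - m - 1).toNat, by omega⟩
  refine h.2 ?_
  have h1 := (iter_u hu j h'.1).1
  subst hj
  convert h1 using 1
  rw [← zpow_natCast, ← mul_assoc, ← mul_assoc, ← zpow_neg_one, ← zpow_add, ← zpow_add]
  congr 2
  ring

/-- A pattern that repeats after the translation `u` and is crossed by an orbit gives an element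
of infinite order. -/
theorem no_periodic {G : Type*} [Group G] (hG : ∀ g : G, IsOfFinOrder g)
    (φ : FreeGroup (Fin n) →* G) (hφ : Function.Surjective φ) (S : Set (FreeGroup (Fin n)))
    (hker : Subgroup.normalClosure S = φ.ker) {M R r : ℕ} (hM : ∀ w ∈ S, w.toWord.length ≤ M)
    (hr : (M + 3) * R ≤ r) (hp : 2 * r + 2 ≤ p) (ρ : G →* Equiv.Perm (Pt d k))
    (hR : ∀ s z, FreeGroup.norm (z.1⁻¹ * (letAct φ ρ s z).1) ≤ R)
    (hpat : ∀ s z, FreeGroup.norm z.1 ≤ r → letAct φ ρ s (sh u z) = sh u (letAct φ ρ s z))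
    (p0 : Pt d k) (hp0 : St a p0.1) (hp0' : FreeGroup.norm p0.1 ≤ R)
    (hconn : Conn (letAct φ ρ) (St a) p0 (sh u p0))
    (hback : ∀ x y : Pt d k, St a x.1 → FreeGroup.norm x.1 ≤ R → St a y.1 → FreeGroup.norm y.1 ≤ R →
      Conn (letAct φ ρ) (fun w => St a (u⁻¹ * w)) (sh u x) (sh u y) →
      Conn (letAct φ ρ) (Dom a u) x y) : False := by
  classical
  set A := letAct φ ρ with hA
  have hrR : R ≤ r := le_trans (Nat.le_mul_of_pos_left R (by omega)) hr
  choose idx hidx using exists_dom hu (by omega : 1 ≤ p)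
  let tau : Fin n × Bool → Pt d k → Pt d k := fun s z =>
    sh (u ^ idx z.1) (A s (sh (u ^ (-idx z.1)) z))
  have idx_eq : ∀ {m : ℤ} {w}, Dom a u (u ^ (-m) * w) → idx w = m := fun h =>
    dom_unique hu (hidx _) h
  have idx_dom : ∀ {w}, Dom a u w → idx w = 0 := fun h => idx_eq (by simpa using h)
  have tau_dom : ∀ s (z : Pt d k), Dom a u z.1 → tau s z = A s z := fun s (z : Pt d k) hz => by
    simp [tau, idx_dom hz, sh_one]
  have tau_sh : ∀ s z (m : ℤ), tau s (sh (u ^ m) z) = sh (u ^ m) (tau s z) := by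
    intro s z m
    have : idx (u ^ m * z.1) = m + idx z.1 := idx_eq (by
      rw [← mul_assoc, ← zpow_add]
      simpa using hidx z.1)
    simp only [tau, sh_sh]
    rw [show (sh (u ^ m) z).1 = u ^ m * z.1 from rfl, this, ← zpow_add, ← zpow_add]
    congr 2
    congr 1
    congr 1
    ring
  have lowA : ∀ w, ¬ St a w → FreeGroup.norm w ≤ r → Dom a u (u * w) := by
    intro w hw hwr
    refine ⟨by_contra fun hn => ?_, by simpa using hw⟩
    obtain ⟨h1, h2⟩ := hu _ (st_el a).1
    have h3 := cut h1 hn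
    rw [show (u * el a)⁻¹ * (u * w) = (el a)⁻¹ * w by group] at h3
    have h4 := FreeGroup.norm_mul_le (el a)⁻¹ w
    rw [FreeGroup.norm_inv_eq, (st_el a).2] at h4
    rw [(st_el a).2] at h2
    omega
  have lowB : ∀ w, FreeGroup.norm w ≤ r → ¬ St a (u⁻¹ * w) := by
    intro w hw hs
    have h := (hu _ hs).2
    rw [mul_inv_cancel_left] at h
    omega
  have agree : ∀ s z x, Dom a u z → FreeGroup.norm (z⁻¹ * x.1) ≤ r → tau s x = A s x := by
    intro s z x hz hzx
    by_cases h1 : St a x.1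
    · by_cases h2 : St a (u⁻¹ * x.1)
      · have h3 := cut_le (R := r) h2 hz.2
          (by rw [show (u⁻¹ * x.1)⁻¹ * (u⁻¹ * z) = x.1⁻¹ * z by group, norm_inv_mul_comm]; exact hzx)
        have e : idx x.1 = 1 := idx_eq ⟨by simpa using h2, by
          simpa using lowB _ h3.1⟩
        have hh := hpat s (sh u⁻¹ x) (by simpa [sh] using h3.1)
        rw [sh_sh, mul_inv_cancel, sh_one] at hh
        rw [hh]
        simp [tau, e]
      · exact tau_dom s x ⟨h1, h2⟩
    · have h3 := cut_le hz.1 h1 hzx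
      have e : idx x.1 = -1 := idx_eq (by simpa using lowA _ h1 h3.2)
      have hh := hpat s x h3.2
      simp only [tau, e, neg_neg, zpow_one]
      rw [hh, sh_sh]
      simp [sh_one]
  have tau_bd : ∀ s z, FreeGroup.norm (z.1⁻¹ * (tau s z).1) ≤ R := by
    intro s z
    have := hR s (sh (u ^ (-idx z.1)) z)
    refine le_trans (le_of_eq ?_) this
    simp only [tau, sh]
    congr 1
    group
  have runA : ∀ (L : List (Fin n × Bool)), L.length ≤ M + 2 → ∀ z, Dom a u z.1 →
      (L.map (fun s x => A s x)).foldr (fun f x => f x) z =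
        (L.map (fun s x => tau s x)).foldr (fun f x => f x) z ∧
      FreeGroup.norm (z.1⁻¹ * ((L.map (fun s x => tau s x)).foldr (fun f x => f x) z).1) ≤ L.length * R := by
    intro L
    induction L with
    | nil => intro _ z _; simp
    | cons s L ih =>
      intro hL z hz
      simp only [List.length_cons] at hL
      obtain ⟨h1, h2⟩ := ih (by omega) z hz
      simp only [List.map_cons, List.foldr_cons, List.length_cons, h1]
      set y := (L.map (fun s x => tau s x)).foldr (fun f x => f x) z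
      refine ⟨(agree s z.1 y hz ?_).symm, ?_⟩
      · have : L.length * R ≤ (M + 3) * R := Nat.mul_le_mul_right R (by omega)
        omega
      · refine (norm_inv_mul_triangle _ y.1 _).trans ?_
        have := tau_bd s y
        rw [Nat.add_mul, one_mul]
        omega
  have run_sh : ∀ (L : List (Fin n × Bool)) z (m : ℤ),
      (L.map (fun s x => tau s x)).foldr (fun f x => f x) (sh (u ^ m) z) =
        sh (u ^ m) ((L.map (fun s x => tau s x)).foldr (fun f x => f x) z) := by
    intro L z m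
    induction L with
    | nil => rfl
    | cons s L ih => simp [List.foldr_cons, ih, tau_sh]
  have prod_run : ∀ {X : Type} (B : Fin n × Bool → Equiv.Perm X) (L : List (Fin n × Bool)) z,
      (L.map B).prod z = (L.map (fun s x => B s x)).foldr (fun f x => f x) z := by
    intro X B L z
    induction L with
    | nil => rfl
    | cons s L ih => simp [Equiv.Perm.mul_apply, ih]
  have run_id : ∀ (L : List (Fin n × Bool)), L.length ≤ M + 2 →
      (L.map A).prod = 1 → ∀ z, (L.map (fun s x => tau s x)).foldr (fun f x => f x) z = z := by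
    intro L hL hprod z
    have e : z = sh (u ^ idx z.1) (sh (u ^ (-idx z.1)) z) := by simp [sh_sh, sh_one]
    rw [e, run_sh, ← (runA L hL _ (hidx z.1)).1, ← prod_run, hprod]
    rfl
  have hinv : ∀ s z, tau (opp s) (tau s z) = z := by
    intro s z
    have := run_id [opp s, s] (by simp) (Equiv.ext fun x => by simp [hA, letAct_opp]) z
    simpa using this
  let σ : Fin n → Equiv.Perm (Pt d k) := fun i =>
    { toFun := tau (i, true)
      invFun := tau (i, false)
      left_inv := fun z => hinv (i, true) z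
      right_inv := fun z => hinv (i, false) z }
  let B : Fin n × Bool → Equiv.Perm (Pt d k) := fun s => cond s.2 (σ s.1) (σ s.1)⁻¹
  have hB : ∀ s z, B s z = tau s z := fun s z => by
    obtain ⟨i, b⟩ := s
    cases b <;> rfl
  have hlift : ∀ L, FreeGroup.lift σ (FreeGroup.mk L) = (L.map B).prod := fun L => by
    rw [FreeGroup.lift_mk]
  have hBfun : (fun s x => B s x) = (fun s x => tau s x) := funext fun s => funext fun x => hB s x
  have hS : φ.ker ≤ (FreeGroup.lift σ).ker := by
    rw [← hker]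
    refine Subgroup.normalClosure_le_normal fun w hw => ?_
    rw [SetLike.mem_coe, MonoidHom.mem_ker, ← FreeGroup.mk_toWord (x := w), hlift]
    refine Equiv.ext fun z => ?_
    rw [prod_run, hBfun]
    refine run_id _ (by have := hM w hw; omega) ?_ z
    rw [hA, ← letAct_mk, FreeGroup.mk_toWord,
      (MonoidHom.mem_ker (f := φ)).mp (hker ▸ Subgroup.subset_normalClosure hw), map_one]
  let ψ : G →* Equiv.Perm (Pt d k) :=
    φ.liftOfRightInverse (Function.surjInv hφ) (Function.rightInverse_surjInv hφ)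
      ⟨FreeGroup.lift σ, hS⟩
  have hψ : ∀ w, ψ (φ w) = FreeGroup.lift σ w := fun w =>
    MonoidHom.liftOfRightInverse_comp_apply φ _ _ ⟨FreeGroup.lift σ, hS⟩ w
  have hstep : ∀ s z, ψ (φ (FreeGroup.mk [s])) z = tau s z := fun s z => by
    rw [hψ, hlift]
    simp [hB]
  have hsh : ∀ g z (m : ℤ), ψ g (sh (u ^ m) z) = sh (u ^ m) (ψ g z) := by
    intro g z m
    obtain ⟨w, rfl⟩ := hφ g
    rw [hψ, ← FreeGroup.mk_toWord (x := w), hlift, prod_run, prod_run, hBfun, run_sh]
  let T : Pt d k → Pt d k → Prop := fun x y => ∃ g, ψ g x = y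
  have Ttr : ∀ {x y z}, T x y → T y z → T x z := fun ⟨g, hg⟩ ⟨h, hh⟩ =>
    ⟨h * g, by rw [map_mul, Equiv.Perm.mul_apply, hg, hh]⟩
  have Tdom : ∀ {x y}, Conn A (Dom a u) x y → T x y := by
    intro x y h
    induction h with
    | refl => exact ⟨1, by simp⟩
    | tail _ h2 ih =>
      obtain ⟨h1, -, s, hs⟩ := h2
      exact Ttr ih ⟨φ (FreeGroup.mk [s]), by rw [hstep, tau_dom s _ h1, hs]⟩
  have Tsh : ∀ {x y}, T x y → T (sh u x) (sh u y) := fun {x y} ⟨g, hg⟩ =>
    ⟨g, by simpa [hg] using hsh g x 1⟩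
  let Hp : FreeGroup (Fin d) → Prop := fun w => St a (u⁻¹ * w)
  have main : ∀ z, Conn A (St a) p0 z →
      (¬ Hp z.1 ∧ T p0 z) ∨ (Hp z.1 ∧ ∃ y : Pt d k, St a y.1 ∧ FreeGroup.norm y.1 ≤ R ∧
        T p0 (sh u y) ∧ Conn A Hp (sh u y) z) := by
    intro z hz
    induction hz with
    | refl => exact Or.inl ⟨lowB _ (hp0'.trans hrR), 1, by simp⟩
    | @tail b c _ hbc ih =>
      obtain ⟨hb, hc, s, hs⟩ := hbc
      have hd : FreeGroup.norm ((u⁻¹ * b.1)⁻¹ * (u⁻¹ * c.1)) ≤ R := by
        rw [show (u⁻¹ * b.1)⁻¹ * (u⁻¹ * c.1) = b.1⁻¹ * c.1 by group, ← hs]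
        exact hR s b
      by_cases hc' : Hp c.1
      · right
        refine ⟨hc', ?_⟩
        rcases ih with ⟨hb', hT⟩ | ⟨hb', y, hy, hy', hT, hC⟩
        · refine ⟨sh u⁻¹ c, by simpa [sh] using hc', ?_, ?_, ?_⟩
          · exact (cut_le hc' hb' (by rw [norm_inv_mul_comm]; exact hd)).1
          · rw [sh_sh, mul_inv_cancel, sh_one]
            exact Ttr hT ⟨φ (FreeGroup.mk [s]), by rw [hstep, tau_dom s _ ⟨hb, hb'⟩, hs]⟩
          · rw [sh_sh, mul_inv_cancel, sh_one]
            exact Relation.ReflTransGen.refl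
        · exact ⟨y, hy, hy', hT, hC.tail ⟨hb', hc', s, hs⟩⟩
      · left
        refine ⟨hc', ?_⟩
        rcases ih with ⟨hb', hT⟩ | ⟨hb', y, hy, hy', hT, hC⟩
        · exact Ttr hT ⟨φ (FreeGroup.mk [s]), by rw [hstep, tau_dom s _ ⟨hb, hb'⟩, hs]⟩
        · have hb2 : sh u (sh u⁻¹ b) = b := by simp [sh_sh, sh_one]
          have h2 := Tsh (Tdom (hback y (sh u⁻¹ b) hy hy' (by simpa [sh] using hb')
            (cut_le hb' hc' hd).1 (by rw [hb2]; exact hC)))
          rw [hb2] at h2
          have h3 : T b c := by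
            refine ⟨φ (FreeGroup.mk [s]), ?_⟩
            have h4 : tau (opp s) c = b := by
              rw [tau_dom _ _ ⟨hc, hc'⟩, ← hs, hA, letAct_opp]
            rw [hstep, ← h4]
            have := hinv (opp s) c
            simpa [opp] using this
          exact Ttr (Ttr hT h2) h3
  rcases main _ hconn with ⟨h, -⟩ | ⟨-, y, hy, hy', hT, hC⟩
  · exact h (by simpa [Hp, sh] using hp0)
  obtain ⟨g, hg⟩ := Ttr hT (Tsh (Tdom (hback y p0 hy hy' hp0 hp0' hC)))
  obtain ⟨N, hN, hgN⟩ := isOfFinOrder_iff_pow_eq_one.mp (hG g)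
  have hpow : ∀ j : ℕ, ψ (g ^ j) p0 = sh (u ^ (j : ℤ)) p0 := by
    intro j
    induction j with
    | zero => simp [sh_one]
    | succ j ih =>
      rw [pow_succ', map_mul, Equiv.Perm.mul_apply, ih, hsh, hg, sh_sh]
      simp [zpow_add_one]
  have h1 := congrArg Prod.fst (hpow N)
  rw [hgN, map_one] at h1
  have h2 : u ^ N = 1 := by simpa [sh] using h1.symm
  have h3 := (iter_u hu N (st_el a).1).2
  rw [h2, one_mul] at h3
  nlinarith

end Vale.Agent.P192.Tree
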