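import Vale.Agent.P192.Tree.Model

/-!
# An infinite orbit produces a crossed repeated pattern
-/

namespace Vale.Agent.P192.Tree

variable {d n k : ℕ}

/-- The half tree behind the edge at `v` labelled `a`. -/
def Half (v : FreeGroup (Fin d)) (a : Fin d × Bool) (w : FreeGroup (Fin d)) : Prop :=
  St a (v⁻¹ * w)

theorem st_tail {a : Fin d × Bool} {w : FreeGroup (Fin d)} (h : St a w) :
    ¬ St (opp a) ((el a)⁻¹ * w) ∧ FreeGroup.norm ((el a)⁻¹ * w) + 1 = FreeGroup.norm w := by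
  rcases hw : w.toWord with _ | ⟨b, T⟩
  · rw [St, hw] at h
    simp at h
  · have hb : b = a := by simpa [St, hw] using h
    subst hb
    have hred : FreeGroup.IsReduced (b :: T) := hw ▸ FreeGroup.isReduced_toWord
    have hT : ((el b)⁻¹ * w).toWord = T := by
      rw [← FreeGroup.mk_toWord (x := w), hw, el,
        show FreeGroup.mk (b :: T) = FreeGroup.mk [b] * FreeGroup.mk T from by simp [FreeGroup.mul_mk],
        inv_mul_cancel_left, FreeGroup.toWord_mk]
      exact FreeGroup.IsReduced.reduce_eq (List.IsChain.tail hred)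
    rw [FreeGroup.IsReduced, List.isChain_cons] at hred
    refine ⟨fun hs => ?_, by simp [FreeGroup.norm, hT, hw]⟩
    have := hred.1 (opp b) (by simpa [St, hT] using hs) rfl
    simp [opp] at this

theorem half_step {v : FreeGroup (Fin d)} {a b : Fin d × Bool} (hb : b ≠ opp a)
    {w : FreeGroup (Fin d)} (h : Half (v * el a) b w) :
    Half v a w ∧ FreeGroup.norm (v⁻¹ * w) = FreeGroup.norm ((v * el a)⁻¹ * w) + 1 := by
  have := st_el_mul (a := a) h hb
  rwa [show el a * ((v * el a)⁻¹ * w) = v⁻¹ * w by group] at this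

theorem Conn.transport {A B : Fin n × Bool → Equiv.Perm (Pt d k)}
    {P Q : FreeGroup (Fin d) → Prop} (c : FreeGroup (Fin d))
    (hAB : ∀ s z, B s (sh c z) = sh c (A s z)) (hPQ : ∀ w, P w → Q (c * w)) {x y : Pt d k}
    (h : Conn A P x y) : Conn B Q (sh c x) (sh c y) := by
  induction h with
  | refl => exact Relation.ReflTransGen.refl
  | tail _ h ih =>
    obtain ⟨h1, h2, s, hs⟩ := h
    exact ih.tail ⟨hPQ _ h1, hPQ _ h2, s, by rw [hAB, hs]⟩

/-- The place where a path enters a half tree for the last time. -/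
theorem entry {A : Fin n × Bool → Equiv.Perm (Pt d k)} {R : ℕ}
    (hR : ∀ s z, FreeGroup.norm (z.1⁻¹ * (A s z).1) ≤ R) {P : FreeGroup (Fin d) → Prop}
    (v : FreeGroup (Fin d)) (b : Fin d × Bool) (p : Pt d k)
    (hp : Half v b p.1 → FreeGroup.norm (v⁻¹ * p.1) ≤ R) {z : Pt d k} (h : Conn A P p z) :
    Half v b z.1 → ∃ y : Pt d k, Half v b y.1 ∧ FreeGroup.norm (v⁻¹ * y.1) ≤ R ∧
      Conn A P p y ∧ Conn A (Half v b) y z := by
  induction h with
  | refl => exact fun hh => ⟨p, hh, hp hh, Relation.ReflTransGen.refl, Relation.ReflTransGen.refl⟩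
  | @tail x y hx hxy ih =>
    intro hy
    by_cases hx' : Half v b x.1
    · obtain ⟨q, h1, h2, h3, h4⟩ := ih hx'
      exact ⟨q, h1, h2, h3, h4.tail ⟨hx', hy, hxy.2.2⟩⟩
    · refine ⟨y, hy, ?_, Relation.ReflTransGen.tail hx hxy, Relation.ReflTransGen.refl⟩
      obtain ⟨s, hs⟩ := hxy.2.2
      refine (cut_le hy hx' ?_).1
      rw [show (v⁻¹ * y.1)⁻¹ * (v⁻¹ * x.1) = y.1⁻¹ * x.1 by group, norm_inv_mul_comm, ← hs]
      exact hR s x

/-- One step along the ray. -/
theorem choose_branch {A : Fin n × Bool → Equiv.Perm (Pt d k)} {R : ℕ}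
    (hR : ∀ s z, FreeGroup.norm (z.1⁻¹ * (A s z).1) ≤ R) {P : FreeGroup (Fin d) → Prop}
    (v : FreeGroup (Fin d)) (p : Pt d k)
    (hp : ∀ b, Half v b p.1 → FreeGroup.norm (v⁻¹ * p.1) ≤ R)
    (hinf : {z | Conn A P p z}.Infinite) :
    ∃ b y, Half v b y.1 ∧ FreeGroup.norm (v⁻¹ * y.1) ≤ R ∧ Conn A P p y ∧
      {z | Conn A (Half v b) y z}.Infinite ∧ ∃ z, Conn A P p z ∧ z ≠ p ∧ Half v b z.1 := by
  classical
  have hcov : {z | Conn A P p z} ⊆ {z : Pt d k | z = p} ∪ ({z : Pt d k | z.1 = v} ∪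
      ⋃ b : Fin d × Bool, {z | Conn A P p z ∧ z ≠ p ∧ Half v b z.1}) := by
    intro z hz
    by_cases h0 : z = p
    · exact Or.inl h0
    rcases hw : (v⁻¹ * z.1).toWord with _ | ⟨b, T⟩
    · exact Or.inr (Or.inl (inv_mul_eq_one.mp (FreeGroup.toWord_eq_nil_iff.mp hw)).symm)
    · exact Or.inr (Or.inr (Set.mem_iUnion.2 ⟨b, hz, h0, by simp [Half, St, hw]⟩))
  have hfin : {z : Pt d k | z.1 = v}.Finite :=
    ((Set.finite_singleton v).prod (Set.finite_univ (α := Fin k))).subset fun z hz => ⟨hz, trivial⟩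
  obtain ⟨b, hb⟩ : ∃ b, {z | Conn A P p z ∧ z ≠ p ∧ Half v b z.1}.Infinite := by
    by_contra! hall
    exact hinf (((Set.finite_singleton p).union
      (hfin.union (Set.finite_iUnion fun b => hall b))).subset hcov)
  have hBd : {y : Pt d k | FreeGroup.norm (v⁻¹ * y.1) ≤ R}.Finite :=
    (((finite_norm_le R).image fun w => v * w).prod (Set.finite_univ (α := Fin k))).subset
      fun y hy => ⟨⟨v⁻¹ * y.1, hy, by simp⟩, trivial⟩
  have hsub : {z | Conn A P p z ∧ z ≠ p ∧ Half v b z.1} ⊆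
      ⋃ y ∈ {y : Pt d k | FreeGroup.norm (v⁻¹ * y.1) ≤ R},
        {z | Half v b y.1 ∧ Conn A P p y ∧ Conn A (Half v b) y z} := by
    rintro z ⟨hz, -, hz'⟩
    obtain ⟨y, h1, h2, h3, h4⟩ := entry hR v b p (hp b) hz hz'
    exact Set.mem_biUnion h2 ⟨h1, h3, h4⟩
  obtain ⟨y, hy, hy'⟩ : ∃ y ∈ {y : Pt d k | FreeGroup.norm (v⁻¹ * y.1) ≤ R},
      {z | Half v b y.1 ∧ Conn A P p y ∧ Conn A (Half v b) y z}.Infinite := by
    by_contra! hall
    exact hb ((hBd.biUnion hall).subset hsub)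
  obtain ⟨z, h1, h2, -⟩ := hy'.nonempty
  exact ⟨b, y, h1, hy, h2, hy'.mono fun z hz => hz.2.2, hb.nonempty⟩

theorem conn_end {A : Fin n × Bool → Equiv.Perm (Pt d k)} {P : FreeGroup (Fin d) → Prop}
    {p z : Pt d k} (h : Conn A P p z) : z = p ∨ P z.1 := by
  induction h with
  | refl => exact Or.inl rfl
  | tail _ h _ => exact Or.inr h.2.1

theorem conn_horizon {A : Fin n × Bool → Equiv.Perm (Pt d k)} {P : FreeGroup (Fin d) → Prop}
    (v : FreeGroup (Fin d)) {p z : Pt d k} (h : Conn A P p z) :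
    ∃ N, Conn A (fun w => P w ∧ FreeGroup.norm (v⁻¹ * w) ≤ N) p z := by
  induction h with
  | refl => exact ⟨0, Relation.ReflTransGen.refl⟩
  | @tail x y _ hxy ih =>
    obtain ⟨N, hN⟩ := ih
    refine ⟨N + FreeGroup.norm (v⁻¹ * x.1) + FreeGroup.norm (v⁻¹ * y.1), ?_⟩
    have h1 : Conn A (fun w => P w ∧ FreeGroup.norm (v⁻¹ * w) ≤
        N + FreeGroup.norm (v⁻¹ * x.1) + FreeGroup.norm (v⁻¹ * y.1)) p x :=
      hN.mono fun w hw => ⟨hw.1, by have := hw.2; omega⟩
    exact Relation.ReflTransGen.tail h1 ⟨⟨hxy.1, by omega⟩, ⟨hxy.2.1, by omega⟩, hxy.2.2⟩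

/-- Every orbit of a bounded-displacement action of a finitely presented periodic group on
finitely many copies of a tree is finite. -/
theorem finite_orbit {G : Type*} [Group G] (hG : ∀ g : G, IsOfFinOrder g)
    (φ : FreeGroup (Fin n) →* G) (hφ : Function.Surjective φ) (S : Set (FreeGroup (Fin n)))
    (hS : S.Finite) (hker : Subgroup.normalClosure S = φ.ker) (R : ℕ)
    (ρ : G →* Equiv.Perm (Pt d k))
    (hR : ∀ s z, FreeGroup.norm (z.1⁻¹ * (letAct φ ρ s z).1) ≤ R) (z0 : Pt d k) :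
    {z | Conn (letAct φ ρ) (fun _ => True) z0 z}.Finite := by
  classical
  by_contra hinf
  set A := letAct φ ρ with hA
  set M : ℕ := hS.toFinset.sup fun w => w.toWord.length
  set r : ℕ := (M + 3) * R
  let Good : FreeGroup (Fin d) × (Fin d × Bool) × Pt d k → Prop := fun t =>
    Half t.1 t.2.1 t.2.2.1 ∧ FreeGroup.norm (t.1⁻¹ * t.2.2.1) ≤ R ∧
      {z | Conn A (Half t.1 t.2.1) t.2.2 z}.Infinite
  obtain ⟨b0, y0, hb0, hy0, -, hi0, -⟩ := choose_branch hR z0.1 z0 (fun b _ => by simp) hinf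
  have step : ∀ t : {t // Good t}, ∃ t' : {t // Good t}, t'.1.1 = t.1.1 * el t.1.2.1 ∧
      t'.1.2.1 ≠ opp t.1.2.1 ∧ Conn A (Half t.1.1 t.1.2.1) t.1.2.2 t'.1.2.2 := by
    rintro ⟨⟨v, a, p⟩, hv, hn, hi⟩
    dsimp only at hv hn hi ⊢
    obtain ⟨b, y, h1, h2, h3, h4, z, hz, hzp, hz'⟩ := choose_branch hR (v * el a) p (fun b _ => by
      have := (st_tail hv).2
      rw [show (el a)⁻¹ * (v⁻¹ * p.1) = (v * el a)⁻¹ * p.1 by group] at this
      omega) hi
    refine ⟨⟨⟨v * el a, b, y⟩, h1, h2, h4⟩, rfl, fun e => ?_, h3⟩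
    rcases conn_end hz with h | h
    · exact hzp h
    · refine (st_tail h).1 ?_
      rw [show (el a)⁻¹ * (v⁻¹ * z.1) = (v * el a)⁻¹ * z.1 by group]
      exact e ▸ hz'
  choose next hnext1 hnext2 hnext3 using step
  let T : ℕ → {t // Good t} := fun t => Nat.rec ⟨⟨z0.1, b0, y0⟩, hb0, hy0, hi0⟩ (fun _ x => next x) t
  let v : ℕ → FreeGroup (Fin d) := fun t => (T t).1.1
  let a : ℕ → Fin d × Bool := fun t => (T t).1.2.1
  let p : ℕ → Pt d k := fun t => (T t).1.2.2
  have hv : ∀ t, v (t + 1) = v t * el (a t) := fun t => hnext1 (T t)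
  have ha : ∀ t, a (t + 1) ≠ opp (a t) := fun t => hnext2 (T t)
  have hpp : ∀ t, Conn A (Half (v t) (a t)) (p t) (p (t + 1)) := fun t => hnext3 (T t)
  have hgood : ∀ t, Half (v t) (a t) (p t).1 ∧ FreeGroup.norm ((v t)⁻¹ * (p t).1) ≤ R := fun t =>
    ⟨(T t).2.1, (T t).2.2.1⟩
  have nest : ∀ i j, i ≤ j → ∀ w, Half (v j) (a j) w → Half (v i) (a i) w ∧
      FreeGroup.norm ((v i)⁻¹ * w) = (j - i) + FreeGroup.norm ((v j)⁻¹ * w) := by
    intro i j hij
    induction j, hij using Nat.le_induction with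
    | base => exact fun w hw => ⟨hw, by simp⟩
    | succ j hij ih =>
      intro w hw
      rw [hv] at hw ⊢
      obtain ⟨h1, h2⟩ := half_step (ha j) hw
      obtain ⟨h3, h4⟩ := ih w h1
      exact ⟨h3, by omega⟩
  have hchain : ∀ i j, i ≤ j → Conn A (Half (v i) (a i)) (p i) (p j) := by
    intro i j hij
    induction j, hij using Nat.le_induction with
    | base => exact Relation.ReflTransGen.refl
    | succ j hij ih => exact Relation.ReflTransGen.trans ih ((hpp j).mono fun w hw => (nest i j hij w hw).1)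
  have hball : ∀ m : ℕ, Finite {w : FreeGroup (Fin d) // FreeGroup.norm w ≤ m} := fun m =>
    (finite_norm_le m).to_subtype
  have := hball r
  have := hball (r + R)
  have := hball R
  let BR := {w : FreeGroup (Fin d) // FreeGroup.norm w ≤ R} × Fin k
  let emb : BR → Pt d k := fun x => (x.1.1, x.2)
  let pat : ℕ → Fin n × Bool → {w : FreeGroup (Fin d) // FreeGroup.norm w ≤ r} × Fin k →
      {w : FreeGroup (Fin d) // FreeGroup.norm w ≤ r + R} × Fin k := fun t s x =>
    (⟨(v t)⁻¹ * (A s (sh (v t) (x.1.1, x.2))).1, by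
      refine (le_of_eq_of_le ?_ (FreeGroup.norm_mul_le x.1.1
        ((sh (v t) ((x.1.1, x.2) : Pt d k)).1⁻¹ * (A s (sh (v t) (x.1.1, x.2))).1))).trans
        (add_le_add x.1.2 (hR _ _))
      simp only [sh]
      congr 1
      group⟩, (A s (sh (v t) (x.1.1, x.2))).2)
  let rel : ℕ → Set (BR × BR) := fun t =>
    {q | Conn A (Half (v t) (a t)) (sh (v t) (emb q.1)) (sh (v t) (emb q.2))}
  let key : ℕ → (Fin d × Bool) × (_ × Set (BR × BR) × BR) := fun t =>
    (a t, pat t, rel t, (⟨(v t)⁻¹ * (p t).1, (hgood t).2⟩, (p t).2))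
  obtain ⟨st, hst⟩ := Finite.exists_infinite_fiber key
  have hst' : (key ⁻¹' {st}).Infinite := Set.infinite_coe_iff.1 hst
  obtain ⟨i, hi⟩ := hst'.nonempty
  choose N hN using fun q : rel i => conn_horizon (v i) q.2
  obtain ⟨N0, hN0⟩ := Finite.exists_le (fun q : rel i => N q)
  obtain ⟨j, hj, hjlt⟩ := hst'.exists_gt (i + N0 + 2 * r + 2)
  have hkey : key j = key i := by
    simp only [Set.mem_preimage, Set.mem_singleton_iff] at hi hj
    rw [hi, hj]
  simp only [key, Prod.mk.injEq] at hkey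
  obtain ⟨hae, hpat, hrel, hpe⟩ := hkey
  have hpe1 : (v j)⁻¹ * (p j).1 = (v i)⁻¹ * (p i).1 :=
    congrArg Subtype.val (congrArg Prod.fst hpe)
  have hpe2 : (p j).2 = (p i).2 := (Prod.mk.inj hpe).2
  set u := (v i)⁻¹ * v j with hu
  let τ : Equiv.Perm (Pt d k) :=
    { toFun := sh (v i)
      invFun := sh (v i)⁻¹
      left_inv := fun z => by simp [sh_sh, sh_one]
      right_inv := fun z => by simp [sh_sh, sh_one] }
  let ρ' : G →* Equiv.Perm (Pt d k) := (MulAut.conj τ⁻¹).toMonoidHom.comp ρ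
  have hA' : ∀ s z, letAct φ ρ' s z = sh (v i)⁻¹ (A s (sh (v i) z)) := by
    intro s z
    simp [ρ', hA, letAct, τ]
  have hu1 : ∀ y, St (a i) y →
      St (a i) (u * y) ∧ FreeGroup.norm (u * y) = (j - i) + FreeGroup.norm y := by
    intro y hy
    have h1 : Half (v j) (a j) (v j * y) := by simpa [Half, hae] using hy
    obtain ⟨h2, h3⟩ := nest i j (by omega) _ h1
    simp only [Half] at h2
    rw [inv_mul_cancel_left] at h3
    rw [hu, mul_assoc]
    exact ⟨h2, h3⟩
  refine no_periodic (a := a i) (u := u) (p := j - i) hu1 hG φ hφ S hker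
    (M := M) (R := R) (r := r) (fun w hw => Finset.le_sup (f := fun w => w.toWord.length)
      (hS.mem_toFinset.mpr hw)) le_rfl (by omega) ρ' (fun s z => ?_) (fun s z hz => ?_)
    (sh (v i)⁻¹ (p i)) (hgood i).1 (hgood i).2 ?_ ?_
  · rw [hA']
    refine le_of_eq_of_le ?_ (hR s (sh (v i) z))
    simp only [sh]
    congr 1
    group
  · have h := congrFun (congrFun hpat s) (⟨z.1, hz⟩, z.2)
    simp only [pat, Prod.mk.injEq, Subtype.mk.injEq] at h
    have e : sh (v i) (sh u z) = sh (v j) z := by rw [sh_sh, hu, mul_inv_cancel_left]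
    rw [hA', hA', e]
    refine Prod.ext ?_ h.2
    simp only [sh] at h ⊢
    rw [hu, ← h.1]
    group
  · have e : sh u (sh (v i)⁻¹ (p i)) = sh (v i)⁻¹ (p j) := by
      refine Prod.ext ?_ hpe2.symm
      simp only [sh, hu]
      rw [← hpe1]
      group
    rw [e]
    exact (hchain i j (by omega)).transport _ (fun s z => by simp [hA', sh_sh, sh_one])
      fun w hw => hw
  · intro x y hx hx' hy hy' hc
    have h1 := hc.transport (B := A) (Q := Half (v j) (a j)) (v i)
      (fun s z => by simp [hA', sh_sh, sh_one]) (fun w hw => by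
        simp only [Half, hae]
        rw [hu, mul_inv_rev, inv_inv, mul_assoc] at hw
        exact hw)
    rw [sh_sh, sh_sh, hu, mul_inv_cancel_left] at h1
    have hm : ((⟨x.1, hx'⟩, x.2), (⟨y.1, hy'⟩, y.2)) ∈ rel i := by
      rw [← hrel]
      exact h1
    have h2 := (hN ⟨_, hm⟩).transport (B := letAct φ ρ') (Q := Dom (a i) u) (v i)⁻¹
      (fun s z => by simp [hA', sh_sh, sh_one]) (fun w hw => by
        refine ⟨hw.1, fun hs => ?_⟩
        have h3 := (hu1 _ hs).2
        rw [mul_inv_cancel_left] at h3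
        have := hN0 ⟨_, hm⟩
        have := hw.2
        omega)
    simpa [emb, sh_sh, sh_one] using h2

end Vale.Agent.P192.Tree
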