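import Mathlib

/-!
# Cuts of the Cayley tree of a free group
-/

namespace Vale.Agent.P192.Tree

open FreeGroup

variable {d : ℕ}

/-- The reduced word starts with the letter `a`: the half tree behind the edge at `1` labelled `a`. -/
def St (a : Fin d × Bool) (w : FreeGroup (Fin d)) : Prop := w.toWord.head? = some a

/-- The group element of a letter. -/
def el (a : Fin d × Bool) : FreeGroup (Fin d) := FreeGroup.mk [a]

/-- The opposite letter. -/
def opp (a : Fin d × Bool) : Fin d × Bool := (a.1, !a.2)

theorem not_st_one (a : Fin d × Bool) : ¬ St a 1 := by simp [St]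

theorem one_le_norm {a : Fin d × Bool} {w : FreeGroup (Fin d)} (h : St a w) : 1 ≤ norm w := by
  rcases hw : w.toWord with _ | ⟨b, T⟩
  · rw [St, hw] at h
    simp at h
  · simp [FreeGroup.norm, hw]

theorem toWord_el_mul {a : Fin d × Bool} {y : FreeGroup (Fin d)}
    (h : ∀ b, St b y → b ≠ opp a) : (el a * y).toWord = a :: y.toWord := by
  rw [el, toWord_mul, toWord_mk, reduce_singleton, List.singleton_append]
  refine IsReduced.reduce_eq ?_
  rw [FreeGroup.IsReduced, List.isChain_cons]
  refine ⟨fun b hb e => ?_, isReduced_toWord⟩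
  have := h b hb
  by_contra hne
  exact this (Prod.ext e.symm (Bool.eq_not_of_ne (Ne.symm hne)))

theorem st_el_mul {a b : Fin d × Bool} {y : FreeGroup (Fin d)} (h : St b y) (hb : b ≠ opp a) :
    St a (el a * y) ∧ norm (el a * y) = norm y + 1 := by
  have := toWord_el_mul (a := a) (y := y) (fun c hc => by
    have : c = b := Option.some.inj (hc.symm.trans h)
    exact this ▸ hb)
  exact ⟨by simp [St, this], by simp [FreeGroup.norm, this]⟩

theorem el_toWord (a : Fin d × Bool) : (el a).toWord = [a] := by simp [el]

theorem st_el (a : Fin d × Bool) : St a (el a) ∧ norm (el a) = 1 := by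
  simp [St, FreeGroup.norm, el_toWord]

/-- Points on different sides of a cut are joined through the base vertex. -/
theorem cut {a : Fin d × Bool} {z x : FreeGroup (Fin d)} (hz : St a z) (hx : ¬ St a x) :
    norm (z⁻¹ * x) = norm z + norm x := by
  rcases hw : z.toWord with _ | ⟨b, T⟩
  · rw [St, hw] at hz
    simp at hz
  · have hb : b = a := by simpa [St, hw] using hz
    subst hb
    have key : (z⁻¹ * x).toWord = invRev z.toWord ++ x.toWord := by
      rw [toWord_mul, toWord_inv]
      refine IsReduced.reduce_eq ?_
      rw [FreeGroup.IsReduced, List.isChain_append]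
      refine ⟨?_, isReduced_toWord, fun p hp q hq e => ?_⟩
      · rw [← toWord_inv]
        exact isReduced_toWord
      · simp [hw, invRev] at hp
        subst hp
        by_contra hne
        refine hx ?_
        have : q = b := Prod.ext e.symm (by
          rcases b with ⟨b1, b2⟩; rcases q with ⟨q1, q2⟩
          cases b2 <;> cases q2 <;> simp_all)
        exact this ▸ hq
    simp [FreeGroup.norm, key]

theorem cut_le {a : Fin d × Bool} {z x : FreeGroup (Fin d)} {R : ℕ} (hz : St a z) (hx : ¬ St a x)
    (h : norm (z⁻¹ * x) ≤ R) : norm z ≤ R ∧ norm x ≤ R := by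
  rw [cut hz hx] at h
  omega

theorem norm_inv_mul_comm (z x : FreeGroup (Fin d)) : norm (z⁻¹ * x) = norm (x⁻¹ * z) := by
  rw [← norm_inv_eq, mul_inv_rev, inv_inv]

theorem norm_inv_mul_triangle (x y z : FreeGroup (Fin d)) :
    norm (x⁻¹ * z) ≤ norm (x⁻¹ * y) + norm (y⁻¹ * z) := by
  refine le_trans (le_of_eq ?_) (norm_mul_le _ _)
  rw [mul_assoc, mul_inv_cancel_left]

theorem finite_norm_le (R : ℕ) : {w : FreeGroup (Fin d) | norm w ≤ R}.Finite :=
  ((List.finite_length_le (Fin d × Bool) R).preimage toWord_injective.injOn)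

end Vale.Agent.P192.Tree
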